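import Vale.Agent.P235.R2.H90.PlaneU
import Vale.Agent.P235.R2.H680.SurfF3

/-!
P235-M (helper680, after helper90's `PlaneU`): terminals on surfaces, square root bound for sources,
sinks and genus, from a step map for unions of lanes of the graph itself.
-/

set_option linter.all false

namespace Vale.Agent.P235.R2.H680.SurfK

open Vale.Agent.P235 SimpleGraph Vale.Agent.P235.Red Vale.Agent.P235.R2.H90
  Vale.Agent.P235.R2.H90.Cut
  Vale.Agent.P235.R2.H90.Gam Vale.Agent.P235.R2.H90.Lift Vale.Agent.P235.R2.H90.LiftL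
  Vale.Agent.P235.R2.H90.Outer Vale.Agent.P235.R2.H90.Surf
  Vale.Agent.P235.R2.H90.Final Vale.Agent.P235.R2.H90.TermFinal
open Vale.Agent.P235.R2.H582 (embeds_mono ll_mono)
open Vale.Agent.P235.R2.H90.PlaneU (sqrt_eight round_F)
open Vale.Agent.P235.SurfF (ll_add' ll_le_sqrt)

/-- step maps for unions of lanes of `(G, ℓ)` -/
def StepLanes {V : Type} (G : SimpleGraph V) (ℓ : Sym2 V → ℝ) (K : ℝ) : Prop :=
  ∀ (X : Set V) (n : ℕ), X.Nonempty → Lanes G ℓ n X →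
    ∃ F : V → V → ℝ, IsL1 F ∧ (∀ a b, F a b ≤ pathDist G ℓ a b) ∧
      ∀ ν : V → V, Near G ℓ X ν → ∀ x y δ, 0 < δ → pathDist G ℓ x (ν x) ≤ δ →
        pathDist G ℓ y (ν y) ≤ 5 / 4 * δ → 8 * δ ≤ pathDist G ℓ x y →
        2 * δ ≤ K * (1 + √(Real.log ((n : ℝ) + 2))) * F x y

/-- one round for terminals which deletes at most `n` lanes -/
theorem round_K {K₁ : ℝ} (hK₁ : 1 ≤ K₁)
    {K' : ℝ} (hK' : 1 ≤ K') {V : Type} [Finite V] {G : SimpleGraph V}
    {ℓ : Sym2 V → ℝ} (hSL : StepLanes G ℓ K₁) (hc : G.Connected)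
    (hℓ : ∀ e ∈ G.edgeSet, 0 < ℓ e) {L X : Set V}
    (hX : X.Nonempty) {n : ℕ} (hlanes : Lanes G ℓ n X)
    {W : Type} [Finite W] {G' : SimpleGraph W} {ℓ' : Sym2 W → ℝ} (hc' : G'.Connected)
    (hℓ' : ∀ e ∈ G'.edgeSet, 0 < ℓ' e) {ι : W → V} {κ : V → W}
    (hι : ∀ a b, G'.Adj a b → pathDist G ℓ (ι a) (ι b) ≤ ℓ' s(a, b))
    (hκ : ∀ v, v ∉ X → ι (κ v) = v)
    (hκa : ∀ x y, x ∉ X → y ∉ X → G.Adj x y →
      G'.Adj (κ x) (κ y) ∧ ℓ' s(κ x, κ y) ≤ ℓ s(x, y))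
    (hleaf : EmbedsL1 (fun a b : {w : W | ι w ∈ L} => pathDist G' ℓ' a b) K') :
    EmbedsL1 (fun a b : L => pathDist G ℓ a b) (16000 * (96 * K' + 112 +
      (K₁ * (1 + √(Real.log ((n : ℝ) + 2))) + 4))) := by
  obtain ⟨F, h1, h2, h3⟩ := hSL X n hX hlanes
  have h7 := Real.sqrt_nonneg (Real.log ((n : ℝ) + 2))
  have hB : 1 ≤ K₁ * (1 + √(Real.log ((n : ℝ) + 2))) := by nlinarith
  exact round_F (by linarith) hB hc hℓ hX h1 h2 h3 hc' hℓ' hι hκ hκa hleaf

/-- **terminals on surfaces, tight form, square root for sources, sinks and genus** -/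
theorem surfK_tight {C C₁ : ℝ} (hC1 : 1 ≤ C) (hMS : MStarLL C) (hC₁ : 1 ≤ C₁)
    (V : Type) [Finite V]
    (G : SimpleGraph V) (σ : Equiv.Perm G.Dart) (ℓ : Sym2 V → ℝ) (h : V → ℝ) (L : Set V)
    (A B : Finset V) (M : Finset G.Dart) (g : ℕ) (hc : G.Connected) (hσ : SurfMap g G σ)
    (hℓ : ∀ e ∈ G.edgeSet, 0 < ℓ e) (hSL : StepLanes G ℓ C₁)
    (h1 : ∀ u ∈ L, ∀ v ∈ L, |h u - h v| ≤ pathDist G ℓ u v)
    (hlow : ∀ v ∈ L, v ∉ A → ∃ u ∈ L, G.Adj v u ∧ ℓ s(v, u) ≤ h v - h u)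
    (hhigh : ∀ v ∈ L, (∃ u ∈ L, G.Adj v u ∧ ℓ s(v, u) ≤ h u - h v) ∨ v ∈ B ∨
      ∃ m ∈ M, v ∈ onFace σ m) :
    EmbedsL1 (fun u v : L => pathDist G ℓ u v) (10 ^ 30 * (C * C₁) *
      ((ll (Nat.card V) : ℝ) + 1 + √(Real.log ((g + A.card + B.card + M.card : ℕ) + 2)))) := by
  classical
  have hFin : Finite G.Dart := Tight.fin_dart
  have hL0 : (0 : ℝ) ≤ ll (Nat.card V) := Nat.cast_nonneg _
  have hy := Real.sqrt_nonneg (Real.log (((g + A.card + B.card + M.card : ℕ) : ℝ) + 2))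
  set y := √(Real.log (((g + A.card + B.card + M.card : ℕ) : ℝ) + 2)) with hydef
  set T : ℝ := (ll (Nat.card V) : ℝ) + 1 + y with hT
  have hsq : ∀ n : ℕ, n ≤ 8 * (g + A.card + B.card + M.card) → √(Real.log ((n : ℝ) + 2)) ≤ 2 + y :=
    fun n hn => sqrt_eight hn
  have hT1 : 1 ≤ T := by rw [hT]; linarith
  have hCT : 1 ≤ C * T := by nlinarith
  have hTCT : T ≤ C * T := by nlinarith
  have hnn : ∀ a b : L, 0 ≤ pathDist G ℓ a b := fun a b => pd_nonneg hℓ _ _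
  have hpos : ∀ u v, G.Adj u v → 0 < ℓ s(u, v) := fun u v ha => hℓ _ (G.mem_edgeSet.2 ha)
  rcases L.eq_empty_or_nonempty with rfl | hL
  · exact (IsL1.zero (V := (∅ : Set V))).embeds (fun a => a.2.elim) (fun a => a.2.elim)
  by_cases hne : Nonempty G.Dart
  swap
  · have hsub := subsingleton_of_no_dart hc hne
    exact Tight.embeds_restrict (fun a : L => a.1) (fun _ _ => rfl)
      (distortion_subsingleton G hc.nonempty ℓ hℓ)
  obtain ⟨k, hk, hkl, hko⟩ := T5.exists_mcshane hc hℓ hL h1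
  let A2 : Finset V := A.filter fun a => a ∈ L ∧ ∀ u ∈ L, G.Adj a u → k a - k u < ℓ s(a, u)
  have hA2 : A2.card ≤ A.card := Finset.card_filter_le _ _
  have hAL : (A2 : Set V) ⊆ L := fun a ha => (Finset.mem_filter.1 (Finset.mem_coe.1 ha)).2.1
  have hmin : ∀ a ∈ A2, ∀ u ∈ L, G.Adj a u → k a - k u < ℓ s(a, u) :=
    fun a ha => (Finset.mem_filter.1 ha).2.2
  have hpar : ∀ v, ∃ u, v ∉ A2 → G.Adj v u ∧ ℓ s(v, u) ≤ k v - k u ∧ (v ∈ L → u ∈ L) := by
    intro v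
    by_cases hv : v ∈ A2
    · exact ⟨v, fun h2 => absurd hv h2⟩
    · by_cases hvL : v ∈ L
      · by_cases hvA : v ∈ A
        · have h2 : ¬ ∀ u ∈ L, G.Adj v u → k v - k u < ℓ s(v, u) := fun h2 =>
            hv (Finset.mem_filter.2 ⟨hvA, hvL, h2⟩)
          push Not at h2
          obtain ⟨u, h3, h4, h5⟩ := h2
          exact ⟨u, fun _ => ⟨h4, h5, fun _ => h3⟩⟩
        · obtain ⟨u, h3, h4, h5⟩ := hlow v hvL hvA
          exact ⟨u, fun _ => ⟨h4, by rw [hk v hvL, hk u h3]; exact h5, fun _ => h3⟩⟩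
      · obtain ⟨u, h3, h4⟩ := hko v hvL
        refine ⟨u, fun _ => ⟨h3.symm, ?_, fun h5 => absurd h5 hvL⟩⟩
        rw [Sym2.eq_swap]
        linarith
  choose p hp0 using hpar
  have hmc : ∀ v, v ∉ (A2 : Set V) → v ∉ A2 := fun v hv h2 => hv (Finset.mem_coe.2 h2)
  have hplow : ∀ v, v ∉ (A2 : Set V) → ℓ s(v, p v) ≤ k v - k (p v) := fun v hv =>
    (hp0 v (hmc v hv)).2.1
  have hpL : ∀ v ∈ L, v ∉ (A2 : Set V) → p v ∈ L := fun v hvL hv =>
    (hp0 v (hmc v hv)).2.2 hvL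
  have hp : Par G k (A2 : Set V) p := by
    refine ⟨fun v hv => (hp0 v (hmc v hv)).1, fun v hv => ?_⟩
    have h2 := hpos _ _ (hp0 v (hmc v hv)).1
    have h3 := hplow v hv
    linarith
  have hAne : (A2 : Set V).Nonempty := by
    have := hc.nonempty
    obtain ⟨v0, hv0⟩ := Finite.exists_min k
    refine ⟨v0, ?_⟩
    by_contra hcon
    have h2 := hp.lt v0 hcon
    have h3 := hv0 (p v0)
    linarith
  have hkh : ∀ v ∈ L, (∃ u ∈ L, G.Adj v u ∧ ℓ s(v, u) ≤ k u - k v) ∨ v ∈ B ∨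
      ∃ m ∈ M, v ∈ onFace σ m := by
    intro v hv
    rcases hhigh v hv with ⟨u, h2, h3, h4⟩ | h2
    · exact Or.inl ⟨u, h2, h3, by rw [hk v hv, hk u h2]; exact h4⟩
    · exact Or.inr h2
  have hv : ∀ v, ∃ d : G.Dart, d.fst = v := by
    intro v
    obtain ⟨d0⟩ := hne
    obtain ⟨w, hw⟩ : ∃ w, G.Adj v w := by
      by_cases hv : v = d0.fst
      · exact ⟨d0.snd, hv ▸ d0.adj⟩
      · obtain ⟨pw⟩ := hc.preconnected v d0.fst
        cases pw with
        | nil => exact absurd rfl hv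
        | cons hadj _ => exact ⟨_, hadj⟩
    exact ⟨⟨(v, w), hw⟩, rfl⟩
  have hlipd : ∀ (ℓ₁ : Sym2 V → ℝ) (k₁ : V → ℝ), (∀ u v, G.Adj u v → |k₁ u - k₁ v| ≤ ℓ₁ s(u, v)) →
      ∀ u v, |k₁ u - k₁ v| ≤ pathDist G ℓ₁ u v := fun ℓ₁ k₁ h2 u v =>
    R2.H582.Wd.lip_pdE hc h2 u v
  have hC0 : (0 : ℝ) < C := by linarith
  have hC₁0 : (0 : ℝ) < C₁ := by linarith
  have hCC1 : C * T ≤ C * C₁ * T := by
    have h4 : 0 ≤ C * T := by linarith
    have h5 : C * T * 1 ≤ C * T * C₁ := mul_le_mul_of_nonneg_left hC₁ h4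
    linarith
  have hCC2 : C₁ * T ≤ C * C₁ * T := by
    have h4 : 0 ≤ C₁ * T := by positivity
    have h5 : C₁ * T * 1 ≤ C₁ * T * C := mul_le_mul_of_nonneg_left hC1 h4
    linarith
  have hTC1 : T ≤ C₁ * T := by nlinarith
  have hfin : ∀ n : ℕ, √(Real.log ((n : ℝ) + 2)) ≤ 2 + y → 16000 * (96 * (27 * 10 ^ 22 * (C * T)) +
      112 + (C₁ * (1 + √(Real.log ((n : ℝ) + 2))) + 4)) ≤ 10 ^ 30 * (C * C₁) * T := by
    intro n hn
    have h4 : 1 + √(Real.log ((n : ℝ) + 2)) ≤ 3 * T := by rw [hT]; linarith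
    have h5 : C₁ * (1 + √(Real.log ((n : ℝ) + 2))) ≤ C₁ * (3 * T) :=
      mul_le_mul_of_nonneg_left h4 hC₁0.le
    linarith
  have hone : ∀ (ℓ₁ : Sym2 V → ℝ) (k₁ : V → ℝ) (s : V), PlaneMap G σ →
      (∀ e ∈ G.edgeSet, 0 < ℓ₁ e) → (∀ u v, G.Adj u v → |k₁ u - k₁ v| ≤ ℓ₁ s(u, v)) →
      (∀ v ∈ L, v ≠ s → ∃ u ∈ L, G.Adj v u ∧ ℓ₁ s(v, u) ≤ k₁ v - k₁ u) →
      (∀ v ∈ L, (∃ u ∈ L, G.Adj v u ∧ ℓ₁ s(v, u) ≤ k₁ u - k₁ v) ∨ v ∈ B ∨
        ∃ m ∈ M, v ∈ onFace σ m) →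
      EmbedsL1 (fun u v : L => pathDist G ℓ₁ u v) (27 * 10 ^ 22 * (C * T)) := by
    intro ℓ₁ k₁ s hP hℓ₁ hlip₁ hlow₁ hhigh₁
    have h2 := T5.peaks hC1 hMS V G σ ℓ₁ k₁ L {s} B M 1 le_rfl hc hP hℓ₁ (Or.inl ⟨s, rfl⟩)
      (fun u _ v _ => hlipd ℓ₁ k₁ hlip₁ u v)
      (fun v hvL hvs => by
        obtain ⟨u, h3, h4, h5⟩ := hlow₁ v hvL hvs
        exact ⟨u, h3, h4, by rwa [one_mul]⟩)
      (fun v hvL => by
        rcases hhigh₁ v hvL with ⟨u, h3, h4, h5⟩ | h3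
        · exact Or.inl ⟨u, h3, h4, by rwa [one_mul]⟩
        · exact Or.inr h3)
    refine embeds_mono (fun a b => pd_nonneg hℓ₁ _ _) ?_ h2
    have h4 : (ll (Nat.card V) : ℝ) + 1 + √(Real.log ((B.card + M.card : ℕ) + 2)) ≤ 9 * T := by
      have h4 := hsq (B.card + M.card) (by omega)
      rw [hT]
      linarith
    have h5 := mul_le_mul_of_nonneg_left h4 (show (0 : ℝ) ≤ 3 * (10 ^ 22 * C * 1) by positivity)
    refine h5.trans (le_of_eq ?_)
    ring
  rcases exists_cut2 hc hne hσ hAne hp with ⟨hP, hA1 | ⟨a, b, hA3, hab⟩⟩ |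
    ⟨C₀, hs, hN, hGne, hQ, hAX, hcut⟩
  · -- one source
    obtain ⟨s, hs⟩ := hAne
    have h2 : ∀ v, v ≠ s → v ∉ (A2 : Set V) := by
      intro v hvs hvA
      exact hvs ((Set.ncard_le_one (Set.toFinite _)).1 hA1 v hvA s hs)
    refine embeds_mono hnn ?_ (hone ℓ k s hP hℓ hkl
      (fun v hvL hvs => ⟨p v, hpL v hvL (h2 v hvs), hp.adj v (h2 v hvs), hplow v (h2 v hvs)⟩) hkh)
    have h5 : 10 ^ 30 * (C * C₁) * T = 10 ^ 30 * (C * C₁ * T) := by ring
    rw [h5]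
    linarith
  · -- two adjacent sources
    have haA : a ∈ A2 := by
      have : a ∈ (A2 : Set V) := by rw [hA3]; exact Or.inl rfl
      exact Finset.mem_coe.1 this
    have haL : a ∈ L := hAL (Finset.mem_coe.2 haA)
    have hbL : b ∈ L := hAL (by rw [hA3]; exact Or.inr rfl)
    obtain ⟨ℓ', k', hp', hlip', hlow', hhigh', hle, heq⟩ := lowerL (L := L)
      (R := fun v => v ∈ B ∨ ∃ m ∈ M, v ∈ onFace σ m) haL hbL hc hℓ hkl hab
      (fun v hvL h2 h3 => by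
        have h4 : v ∉ (A2 : Set V) := by
          rw [hA3]
          exact fun h4 => h4.elim h2 h3
        exact ⟨p v, hpL v hvL h4, hp.adj v h4, hplow v h4⟩)
      (fun u huL hu => hmin a haA u huL hu) hkh
    have h2 := hone ℓ' k' a hP hp' hlip' hlow' hhigh'
    have h3 := round_K hC₁ (K' := 27 * 10 ^ 22 * (C * T)) (by linarith) hSL hc hℓ
      (L := L) (X := {a}) ⟨a, rfl⟩ (n := 1)
      ⟨k, 1, fun _ => {a}, le_rfl, hlipd ℓ k hkl, fun _ => ⟨a, rfl⟩, by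
        intro _ x hx y hy
        rw [Set.mem_singleton_iff.1 hx, Set.mem_singleton_iff.1 hy, pd_self hℓ]
        exact abs_nonneg _, by rw [Set.iUnion_const]⟩
      (G' := G) (ℓ' := ℓ') hc hp' (ι := id) (κ := id)
      (fun u v huv => (pd_adj hℓ huv).trans (hle u v huv)) (fun _ _ => rfl)
      (fun x y hx hy hxy => ⟨hxy, le_of_eq (heq x y hx hy)⟩) h2
    refine embeds_mono hnn (hfin 1 (hsq 1 ?_)) h3
    have h4 : 1 ≤ A.card := (Finset.card_pos.2 ⟨a, haA⟩).trans_le hA2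
    omega
  · -- the cut
    have hCD : CD σ (Gm (A2 : Set V) p C₀) := ⟨hσ.fst, hσ.cyc, Gm_symm hs⟩
    obtain ⟨hconn, hPl, hout⟩ := hcut hCD hN
    have hX := XX_Gm (C₀ := C₀) hp
    obtain ⟨e0, he0⟩ := hGne
    have hfinW : Finite (W σ (Gm (A2 : Set V) p C₀)) := inferInstance
    let ℓ' : Sym2 (W σ (Gm (A2 : Set V) p C₀)) → ℝ := fun e => ℓ (e.map pr)
    have hℓ' : ∀ e ∈ (Gt hCD).edgeSet, 0 < ℓ' e := by
      intro e he
      induction e with
      | _ a b => exact hℓ _ (G.mem_edgeSet.2 (pr_adj hCD he))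
    have hBTf : (BTL σ (A2 : Set V) p C₀ L (B : Set V)).Finite := Set.toFinite _
    rw [Set.ncard_coe_finset] at hQ
    have hQ2 : (QQ (A2 : Set V) p C₀).ncard ≤ 2 * (g + A.card) := by omega
    have hb : hBTf.toFinset.card ≤ B.card + 4 * (2 * (g + A.card)) := by
      rw [← Set.ncard_eq_toFinset_card _ hBTf]
      have h2 := card_BTL (C₀ := C₀) hp hCD hpL hAL (B : Set V)
      rw [Set.ncard_coe_finset] at h2
      omega
    have hW : Nat.card (W σ (Gm (A2 : Set V) p C₀)) ≤ 2 * Nat.card V + 2 * (g + A.card) := by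
      have h2 := card_W hCD hv
      have h3 := card_Gm (C₀ := C₀) hp
      rw [← Nat.card_coe_set_eq] at h3
      rw [hX] at h2
      have h4 : (YY (A2 : Set V) p C₀ \ (A2 : Set V)).ncard ≤ (YY (A2 : Set V) p C₀).ncard :=
        Set.ncard_le_ncard Set.sdiff_subset (Set.toFinite _)
      have h5 : (YY (A2 : Set V) p C₀).ncard ≤ Nat.card V := by
        rw [← Set.ncard_univ]
        exact Set.ncard_le_ncard (Set.subset_univ _) (Set.toFinite _)
      omega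
    have hfar : ∀ u v, |k (pr u) - k (pr v)| ≤ pathDist (Gt hCD) ℓ' u v := fun u v =>
      R2.H582.Wd.lip_pdE hconn (h := fun w => k (pr w))
        (fun u v ha => hkl _ _ (pr_adj hCD ha)) u v
    have h2 := T5.peaks hC1 hMS (W σ (Gm (A2 : Set V) p C₀)) (Gt hCD) (Cut.sg hCD hN) ℓ'
      (fun w => k (pr w)) {w | pr w ∈ L} (onFace (Cut.sg hCD hN)
        (Cut.psi hCD (Sum.inr ⟨e0, he0⟩))) hBTf.toFinset
      (M.image fun m => Cut.psi hCD (Sum.inl m)) 1 le_rfl hconn hPl hℓ'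
      (Or.inr ⟨_, rfl, fun m hm => by
        obtain ⟨m', -, rfl⟩ := Finset.mem_image.1 hm
        exact not_outer hCD hN _ _⟩)
      (fun u _ v _ => hfar u v)
      (fun w hwL hw => by
        have h3 : pr w ∉ XX (Gm (A2 : Set V) p C₀) := by
          intro h3
          rcases w_cases hCD w with ⟨d, h4, rfl⟩ | ⟨e, rfl⟩
          · rw [pr_tau hCD] at h3
            exact h4 h3
          · exact hw (corner_outer hCD hN hout ⟨e0, he0⟩ e)
        obtain ⟨u, h4, h5, h6⟩ := lift_lowL hp hCD hpL hplow w hwL h3 fun h4 => h3 (hAX h4)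
        exact ⟨u, h4, h5, by rw [one_mul]; exact h6⟩)
      (fun w hwL => by
        by_cases hw1 : w ∈ hBTf.toFinset
        · exact Or.inr (Or.inl hw1)
        · by_cases hw2 : ∃ m ∈ M.image fun m => Cut.psi hCD (Sum.inl m),
              w ∈ onFace (Cut.sg hCD hN) m
          · exact Or.inr (Or.inr hw2)
          · refine Or.inl ?_
            push Not at hw2
            obtain ⟨u, h4, h5, h6⟩ := lift_highL hp hCD hplow (L := L) (B := (B : Set V))
              (M := (M : Set G.Dart)) hN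
              (fun v h3 h4 h5 => by
                rcases hkh v h3 with h6 | h6 | ⟨m, h6, h7⟩
                · exact h6
                · exact absurd (Finset.mem_coe.2 h6) h4
                · exact absurd h7 (h5 m (Finset.mem_coe.2 h6))) w hwL
              (fun h3 => hw1 (hBTf.mem_toFinset.2 h3))
              (fun m h3 => hw2 _ (Finset.mem_image.2 ⟨m, Finset.mem_coe.1 h3, rfl⟩))
            exact ⟨u, h4, h5, by rw [one_mul]; exact h6⟩)
    have h3 : EmbedsL1 (fun a b : {w : W σ (Gm (A2 : Set V) p C₀) | pr w ∈ L} =>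
        pathDist (Gt hCD) ℓ' a b) (27 * 10 ^ 22 * (C * T)) := by
      refine embeds_mono (fun a b => pd_nonneg hℓ' _ _) ?_ h2
      have hgy : √(Real.log ((g : ℝ) + 2)) ≤ y := by
        rw [hydef]
        refine Real.sqrt_le_sqrt (Real.log_le_log (by positivity) ?_)
        have : (g : ℝ) ≤ ((g + A.card + B.card + M.card : ℕ) : ℝ) := by
          exact_mod_cast (by omega : g ≤ g + A.card + B.card + M.card)
        linarith
      have h4 : (ll (Nat.card (W σ (Gm (A2 : Set V) p C₀))) : ℝ) ≤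
          ll (Nat.card V) + 4 + 2 * y := by
        have k1 : A.card ≤ Nat.card V := by
          have := Fintype.ofFinite V
          rw [Nat.card_eq_fintype_card]
          exact Finset.card_le_univ A
        have k2 : Nat.card (W σ (Gm (A2 : Set V) p C₀)) ≤ 2 * (2 * Nat.card V + g) := by omega
        have k3 := (ll_mono k2).trans (ll_two _)
        have k3' : (ll (Nat.card (W σ (Gm (A2 : Set V) p C₀))) : ℝ) ≤
            ll (2 * Nat.card V + g) + 1 := by exact_mod_cast k3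
        have k4 := ll_two (Nat.card V)
        have k4' : (ll (2 * Nat.card V) : ℝ) ≤ ll (Nat.card V) + 1 := by exact_mod_cast k4
        have k5 := ll_add' (2 * Nat.card V) g
        have k6 := ll_le_sqrt g
        linarith
      have h5 : √(Real.log ((hBTf.toFinset.card + (M.image fun m =>
          Cut.psi hCD (Sum.inl m)).card : ℕ) + 2)) ≤ 2 + y := by
        refine hsq _ ?_
        have h6 : (M.image fun m => Cut.psi hCD (Sum.inl m)).card ≤ M.card :=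
          Finset.card_image_le
        omega
      have h6 : (ll (Nat.card (W σ (Gm (A2 : Set V) p C₀))) : ℝ) + 1 +
          √(Real.log ((hBTf.toFinset.card + (M.image fun m =>
          Cut.psi hCD (Sum.inl m)).card : ℕ) + 2)) ≤ 9 * T := by
        rw [hT]
        linarith
      have h7 := mul_le_mul_of_nonneg_left h6 (show (0 : ℝ) ≤ 3 * (10 ^ 22 * C * 1) by positivity)
      refine h7.trans (le_of_eq ?_)
      ring
    choose dd hdd using hv
    have h4 := round_K hC₁ (K' := 27 * 10 ^ 22 * (C * T)) (by linarith) hSL hc hℓ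
      (L := L) (X := XX (Gm (A2 : Set V) p C₀)) ⟨e0.fst, mem_XX he0⟩
      (n := (QQ (A2 : Set V) p C₀).ncard) (by
        rw [hX]
        exact lanes_YY hp hc hℓ hkl hplow le_rfl)
      (G' := Gt hCD) (ℓ' := ℓ') hconn hℓ' (ι := pr) (κ := fun v => tau σ _ (dd v))
      (fun u v huv => pd_adj hℓ (pr_adj hCD huv))
      (fun v _ => by rw [pr_tau hCD, hdd])
      (fun x y hx hy hxy => by
        have e1 : tau σ (Gm (A2 : Set V) p C₀) (⟨(x, y), hxy⟩ : G.Dart) = tau σ _ (dd x) :=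
          tau_out hCD (by rw [hdd]; exact hx) (hdd x).symm
        have e2 : tau σ (Gm (A2 : Set V) p C₀) (faceNext σ (⟨(x, y), hxy⟩ : G.Dart)) =
            tau σ _ (dd y) :=
          tau_out hCD (by rw [hdd]; exact hy)
            ((Cut.faceNext_fst hCD (⟨(x, y), hxy⟩ : G.Dart)).trans (hdd y).symm)
        have e3 := adj_tau hCD (⟨(x, y), hxy⟩ : G.Dart)
        rw [e1, e2] at e3
        refine ⟨e3, le_of_eq ?_⟩
        show ℓ s(pr (tau σ _ (dd x)), pr (tau σ _ (dd y))) = _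
        rw [pr_tau hCD, pr_tau hCD, hdd, hdd]) h3
    exact embeds_mono hnn (hfin _ (hsq _ (by omega))) h4

end Vale.Agent.P235.R2.H680.SurfK
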